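import Vale.Agent.P232.GapPair.Bin4.Items0
import Vale.Agent.P232.GapPair.Bin4.Items1
import Vale.Agent.P232.GapPair.Bin4.Items2
import Vale.Agent.P232.GapPair.Bin4.Items3
import Vale.Agent.P232.GapPair.Bin4.Items4
import Vale.Agent.P232.GapPair.Bin4.Items5
import Vale.Agent.P232.GapPair.Bin4.Items6

/-! # P232: certificate for one small axis, the tree -/

namespace Vale.Agent.P232.GapPair.Bin4

/-- All items of the interval. -/
def items : List Item :=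
  chunk0 ++ chunk1 ++ chunk2 ++ chunk3 ++ chunk4 ++ chunk5 ++ chunk6

def part0 : PTree := (.cutX 6850000 (.cutY 910000 (.cutZ 1600000 (.cutZ 1200000 (.cutZ 800000 (.cutY 700000 (.pair 106 5 5) (.pair 106 107 5)) (.cutY 700000 (.pair 106 108 7) (.cutZ 1000000 (.pair 106 107 17) (.pair 106 107 9)))) (.cutY 700000 (.pair 106 108 8) (.cutZ 1400000 (.pair 106 107 109) (.pair 106 110 38)))) (.cutZ 2400000 (.cutZ 2000000 (.cutY 700000 (.cutZ 1800000 (.pair 106 108 46) (.cutY 600000 (.pair 106 48 45) (.pair 106 87 45))) (.cutZ 1800000 (.cutY 800000 (.pair 106 110 46) (.cutZ 1700000 (.pair 106 111 61) (.pair 106 111 89))) (.cutY 800000 (.pair 106 112 45) (.cutZ 1900000 (.cutY 850000 (.pair 106 88 103) (.pair 106 113 103)) (.cutY 850000 (.pair 106 57 58) (.pair 106 113 58)))))) (.cutY 700000 (.cutZ 2200000 (.cutY 600000 (.pair 106 48 69) (.pair 106 87 69)) (.cutY 600000 (.pair 106 48 50) (.pair 106 87 50))) (.cutZ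 2200000 (.cutY 800000 (.pair 106 49 69) (.cutZ 2100000 (.cutY 850000 (.pair 106 57 69) (.pair 106 114 69)) (.pair 106 115 116))) (.cutY 800000 (.pair 106 49 50) (.pair 106 115 50))))) (.cutZ 2800000 (.cutY 700000 (.pair 106 117 73) (.cutZ 2600000 (.pair 106 118 119) (.pair 106 118 120))) (.cutY 700000 (.pair 106 117 74) (.pair 106 118 74))))) .graph) (.cutX 6900000 (.cutY 810000 (.cutZ 1600000 (.cutZ 1200000 (.cutZ 800000 (.cutY 600000 (.pair 121 82 5) (.pair 121 122 5)) (.cutY 600000 (.pair 121 82 7) (.cutZ 1000000 (.pair 121 122 17) (.pair 121 122 9)))) (.cutY 600000 (.pair 121 82 8) (.cutZ 1400000 (.pair 121 122 109) (.pair 121 123 38)))) (.cutZ 2400000 (.cutZ 2000000 (.cutY 600000 (.pair 121 48 10) (.cutZ 1800000 (.cutY 700000 (.pair 121 76 46) (.pair 121 124 46)) (.cutY 700000 (.pair 121 87 45) (.cutZ 1900000 (.pair 121 124 103) (.cutY 750000 (.pair 121 112 45) (.pair 121 125 58)))))) (.cutY 600000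 (.pair 121 48 12) (.cutZ 2200000 (.cutY 700000 (.pair 121 87 69) (.cutZ 2100000 (.cutY 750000 (.pair 121 112 69) (.pair 121 125 69)) (.pair 121 126 116))) (.cutY 700000 (.pair 121 87 50) (.pair 121 126 50))))) (.cutZ 2800000 (.cutY 600000 (.pair 121 48 73) (.cutZ 2600000 (.cutY 700000 (.pair 121 87 119) (.pair 121 126 119)) (.pair 121 127 120))) (.pair 121 128 74)))) .graph) (.cutX 6950000 (.cutY 710000 (.cutZ 1600000 (.cutZ 1200000 (.cutZ 800000 (.pair 129 5 5) (.cutZ 1000000 (.pair 129 28 17) (.pair 129 28 9))) (.cutZ 1400000 (.pair 129 28 109) (.pair 129 130 38))) (.cutZ 2400000 (.cutZ 2000000 (.cutZ 1800000 (.pair 129 130 46) (.cutY 600000 (.pair 129 48 45) (.cutZ 1900000 (.pair 129 131 103) (.pair 129 131 45)))) (.cutZ 2200000 (.cutY 600000 (.pair 129 48 69) (.cutZ 2100000 (.cutY 650000 (.pair 129 87 132) (.pair 129 131 132)) (.cutY 650000 (.pair 129 87 116) (.pair 129 133 116)))) (.cutY 600000 (.pair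 129 48 50) (.pair 129 134 50)))) (.cutZ 2800000 (.cutZ 2600000 (.cutY 600000 (.pair 129 48 119) (.pair 129 134 119)) (.pair 129 135 120)) (.pair 129 135 74)))) .graph) (.cutX 7000000 (.cutY 600000 (.cutZ 1600000 (.cutZ 1200000 (.cutZ 800000 (.pair 136 82 5) (.pair 136 82 7)) (.pair 136 82 8)) (.cutZ 2400000 (.cutZ 2000000 (.pair 136 137 10) (.cutZ 2200000 (.pair 136 48 138) (.pair 136 48 50))) (.pair 136 48 15))) .graph) .graph))))

def part1 : PTree := (.cutX 6750000 (.cutY 1060000 (.cutZ 1600000 (.cutZ 1200000 (.cutY 800000 (.cutZ 800000 (.pair 95 5 5) (.cutY 600000 (.pair 95 82 7) (.pair 95 30 7))) (.cutZ 800000 (.pair 95 96 28) (.cutY 900000 (.pair 95 97 7) (.cutZ 1000000 (.pair 95 96 17) (.pair 95 98 9))))) (.cutY 800000 (.cutY 600000 (.pair 95 82 8) (.cutZ 1400000 (.pair 95 76 36) (.pair 95 76 38))) (.cutY 900000 (.cutZ 1400000 (.pair 95 97 36) (.pair 95 97 38)) (.cutZ 1400000 (.pair 95 98 36) (.cutY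 1000000 (.pair 95 55 38) (.cutZ 1500000 (.pair 95 41 42) (.pair 95 41 43))))))) (.cutZ 2400000 (.cutY 800000 (.cutZ 2000000 (.cutY 600000 (.pair 95 48 10) (.cutZ 1800000 (.pair 95 76 46) (.cutY 700000 (.pair 95 87 45) (.pair 95 49 45)))) (.cutY 600000 (.pair 95 48 12) (.cutZ 2200000 (.cutY 700000 (.pair 95 87 69) (.pair 95 49 69)) (.cutY 700000 (.pair 95 87 50) (.pair 95 49 50))))) (.cutZ 2000000 (.cutY 900000 (.cutZ 1800000 (.pair 95 88 46) (.cutZ 1900000 (.pair 95 88 63) (.pair 95 57 58))) (.cutZ 1800000 (.cutY 1000000 (.cutZ 1700000 (.pair 95 55 61) (.pair 95 55 89)) (.cutZ 1700000 (.pair 95 62 61) (.cutY 1040000 (.pair 95 92 89) (.pair 95 99 89)))) (.cutY 1000000 (.cutZ 1900000 (.cutY 950000 (.pair 95 55 63) (.pair 95 90 63)) (.cutY 950000 (.pair 95 55 58) (.pair 95 90 58))) (.cutZ 1900000 (.cutY 1040000 (.pair 95 92 63) (.pair 95 99 63)) (.pair 95 100 58))))) (.cutY 900000 (.cutZ 2200000 (.pair 95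 57 69) (.pair 95 57 50)) (.cutZ 2200000 (.cutY 1000000 (.cutZ 2100000 (.cutY 950000 (.pair 95 70 69) (.pair 95 90 69)) (.pair 95 70 84)) (.cutZ 2100000 (.pair 95 100 69) (.pair 95 100 84))) (.cutY 1000000 (.pair 95 70 80) (.pair 95 94 80)))))) (.cutY 800000 (.cutZ 2800000 (.cutY 600000 (.pair 95 48 73) (.pair 95 47 73)) (.pair 95 11 74)) (.cutZ 2800000 (.cutY 900000 (.pair 95 53 73) (.pair 95 101 73)) (.pair 95 26 74))))) .graph) (.cutX 6800000 (.cutY 990000 (.cutZ 1600000 (.cutZ 1200000 (.cutY 800000 (.cutZ 800000 (.pair 102 5 5) (.cutY 600000 (.pair 102 82 7) (.pair 102 30 7))) (.cutZ 800000 (.pair 102 17 28) (.cutZ 1000000 (.pair 102 17 17) (.pair 102 17 9)))) (.cutY 800000 (.cutY 600000 (.pair 102 82 8) (.cutZ 1400000 (.pair 102 76 36) (.pair 102 76 38))) (.cutZ 1400000 (.pair 102 35 36) (.cutY 900000 (.pair 102 97 38) (.pair 102 55 38))))) (.cutZ 2400000 (.cutY 800000 (.cutZ 2000000 (.cutY 600000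 (.pair 102 48 10) (.cutZ 1800000 (.pair 102 76 46) (.cutY 700000 (.pair 102 87 45) (.pair 102 49 45)))) (.cutY 600000 (.pair 102 48 12) (.cutZ 2200000 (.cutY 700000 (.pair 102 87 69) (.pair 102 49 69)) (.cutY 700000 (.pair 102 87 50) (.pair 102 49 50))))) (.cutZ 2000000 (.cutZ 1800000 (.cutY 900000 (.pair 102 88 46) (.cutZ 1700000 (.pair 102 55 61) (.pair 102 55 89))) (.cutY 900000 (.cutZ 1900000 (.pair 102 88 103) (.pair 102 57 58)) (.cutZ 1900000 (.cutY 950000 (.pair 102 55 103) (.pair 102 90 103)) (.cutY 950000 (.pair 102 104 58) (.pair 102 90 58))))) (.cutZ 2200000 (.cutY 900000 (.cutZ 2100000 (.pair 102 57 69) (.pair 102 57 84)) (.cutZ 2100000 (.cutY 950000 (.pair 102 104 69) (.pair 102 105 69)) (.pair 102 70 84))) (.cutY 900000 (.pair 102 57 50) (.pair 102 70 80))))) (.cutY 800000 (.cutZ 2800000 (.cutY 600000 (.pair 102 48 73) (.pair 102 47 73)) (.pair 102 11 74)) (.cutZ 2800000 (.pair 102 53 73)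 (.pair 102 53 74))))) .graph) part0))

def part2 : PTree := (.cutX 6650000 (.cutY 1150000 (.cutZ 1600000 (.cutZ 1200000 (.cutY 800000 (.cutZ 800000 (.pair 81 5 5) (.cutY 600000 (.pair 81 82 7) (.pair 81 30 7))) (.cutZ 800000 (.cutY 1000000 (.pair 81 17 28) .empty) (.cutY 1000000 (.cutZ 1000000 (.pair 81 17 17) (.pair 81 17 9)) (.cutZ 1000000 (.pair 81 9 17) (.pair 81 9 9))))) (.cutY 800000 (.cutY 600000 (.pair 81 82 8) (.cutZ 1400000 (.pair 81 76 36) (.pair 81 76 38))) (.cutY 1000000 (.cutZ 1400000 (.pair 81 35 36) (.pair 81 35 38)) (.cutZ 1400000 (.pair 81 83 36) (.cutY 1100000 (.cutZ 1500000 (.pair 81 41 42) (.pair 81 41 43)) (.cutZ 1500000 (.pair 81 77 42) (.pair 81 77 43))))))) (.cutZ 2400000 (.cutY 800000 (.cutZ 2000000 (.cutY 600000 (.pair 81 48 10) (.cutZ 1800000 (.pair 81 76 46) (.cutY 700000 (.pair 81 44 45) (.pair 81 49 45)))) (.cutY 600000 (.pair 81 48 12) (.cutZ 2200000 (.cutY 700000 (.pair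 81 47 69) (.pair 81 49 69)) (.pair 81 47 50)))) (.cutZ 2000000 (.cutY 1000000 (.cutZ 1800000 (.cutY 900000 (.pair 81 57 46) (.cutZ 1700000 (.pair 81 55 61) (.pair 81 55 59))) (.cutY 900000 (.pair 81 57 45) (.cutZ 1900000 (.pair 81 55 63) (.pair 81 55 58)))) (.cutZ 1800000 (.cutY 1100000 (.cutZ 1700000 (.pair 81 62 61) (.cutY 1050000 (.pair 81 62 59) (.pair 81 78 59))) (.cutZ 1700000 (.pair 81 77 67) (.pair 81 65 59))) (.cutY 1100000 (.cutZ 1900000 (.cutY 1050000 (.pair 81 23 63) (.pair 81 78 63)) (.cutY 1050000 (.pair 81 23 58) (.pair 81 78 58))) (.cutZ 1900000 (.pair 81 65 63) (.pair 81 65 58))))) (.cutY 1000000 (.cutZ 2200000 (.cutY 900000 (.pair 81 57 69) (.pair 81 70 69)) (.cutY 900000 (.pair 81 57 50) (.pair 81 70 80))) (.cutZ 2200000 (.cutY 1100000 (.cutZ 2100000 (.pair 81 23 69) (.pair 81 23 84)) (.pair 81 71 69)) (.pair 81 25 80))))) (.cutY 800000 (.cutZ 2800000 (.cutY 600000 (.pair 81 48 73)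 (.pair 81 47 73)) (.pair 81 11 74)) (.cutZ 2800000 (.cutY 1000000 (.pair 81 53 73) (.pair 81 25 73)) (.pair 81 26 74))))) .graph) (.cutX 6700000 (.cutY 1110000 (.cutZ 1600000 (.cutZ 1200000 (.cutY 800000 (.cutZ 800000 (.pair 85 5 5) (.cutY 600000 (.pair 85 82 7) (.pair 85 30 7))) (.cutZ 800000 (.cutY 1000000 (.pair 85 17 28) .empty) (.cutY 1000000 (.cutZ 1000000 (.pair 85 17 17) (.pair 85 17 9)) (.cutZ 1000000 (.pair 85 83 17) (.pair 85 83 9))))) (.cutY 800000 (.cutY 600000 (.pair 85 82 8) (.cutZ 1400000 (.pair 85 76 36) (.pair 85 76 38))) (.cutY 1000000 (.cutZ 1400000 (.pair 85 35 36) (.cutY 900000 (.pair 85 35 38) (.pair 85 55 38))) (.cutZ 1400000 (.pair 85 83 36) (.cutZ 1500000 (.pair 85 83 42) (.cutY 1050000 (.pair 85 41 43) (.pair 85 86 43))))))) (.cutZ 2400000 (.cutY 800000 (.cutZ 2000000 (.cutY 600000 (.pair 85 48 10) (.cutZ 1800000 (.pair 85 76 46) (.cutY 700000 (.pair 85 44 45) (.pair 85 49 45))))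 (.cutY 600000 (.pair 85 48 12) (.cutZ 2200000 (.cutY 700000 (.pair 85 87 69) (.pair 85 49 69)) (.pair 85 47 50)))) (.cutZ 2000000 (.cutY 1000000 (.cutZ 1800000 (.cutY 900000 (.pair 85 88 46) (.cutZ 1700000 (.pair 85 55 61) (.pair 85 55 89))) (.cutY 900000 (.cutZ 1900000 (.pair 85 88 63) (.pair 85 57 58)) (.cutZ 1900000 (.cutY 950000 (.pair 85 55 63) (.pair 85 90 63)) (.cutY 950000 (.pair 85 55 58) (.pair 85 90 58))))) (.cutZ 1800000 (.cutZ 1700000 (.cutY 1050000 (.pair 85 62 61) (.pair 85 86 61)) (.cutY 1050000 (.pair 85 62 89) (.cutY 1080000 (.pair 85 78 59) (.pair 85 91 59)))) (.cutZ 1900000 (.cutY 1050000 (.pair 85 92 63) (.cutY 1080000 (.pair 85 78 63) (.pair 85 91 63))) (.cutY 1050000 (.pair 85 92 58) (.pair 85 93 58))))) (.cutY 1000000 (.cutZ 2200000 (.cutY 900000 (.pair 85 57 69) (.pair 85 70 69)) (.cutY 900000 (.pair 85 57 50) (.pair 85 70 80))) (.cutZ 2200000 (.cutZ 2100000 (.cutY 1050000 (.pair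 85 23 69) (.pair 85 93 69)) (.pair 85 94 84)) (.pair 85 94 80))))) (.cutY 800000 (.cutZ 2800000 (.cutY 600000 (.pair 85 48 73) (.pair 85 47 73)) (.pair 85 11 74)) (.cutZ 2800000 (.cutY 1000000 (.pair 85 53 73) (.pair 85 94 73)) (.pair 85 26 74))))) .graph) part1))

def part3 : PTree := (.cutY 800000 (.cutX 6200000 (.cutZ 2000000 (.cutY 600000 (.pair 27 21 10) (.pair 27 44 10)) (.cutY 600000 (.pair 27 11 12) (.pair 27 44 12))) (.cutZ 2000000 (.cutX 6400000 (.cutY 600000 (.pair 33 21 10) (.cutZ 1800000 (.pair 33 44 10) (.pair 33 44 45))) (.cutY 600000 (.pair 29 21 10) (.cutZ 1800000 (.pair 29 44 46) (.pair 29 44 45)))) (.cutX 6400000 (.cutY 600000 (.pair 33 11 12) (.pair 33 47 12)) (.cutY 600000 (.pair 29 48 12) (.cutZ 2200000 (.cutY 700000 (.pair 29 47 12) (.pair 29 49 12)) (.pair 29 47 50)))))) (.cutX 6200000 (.cutZ 2000000 (.cutY 1000000 (.cutZ 1800000 (.pair 27 22 46) (.pair 27 22 45)) (.cutY 1100000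 (.cutZ 1800000 (.pair 27 23 46) (.pair 27 23 45)) (.cutZ 1800000 (.pair 27 24 51) (.pair 27 24 52)))) (.cutY 1000000 (.pair 27 53 12) (.pair 27 25 54))) (.cutZ 2000000 (.cutY 1000000 (.cutX 6400000 (.cutZ 1800000 (.cutX 6300000 (.pair 39 22 46) (.cutY 900000 (.pair 33 22 46) (.pair 33 55 46))) (.cutX 6300000 (.pair 39 22 45) (.cutY 900000 (.pair 33 22 45) (.pair 33 55 45)))) (.cutZ 1800000 (.cutY 900000 (.pair 29 22 46) (.pair 29 55 56)) (.cutY 900000 (.pair 29 57 45) (.cutX 6500000 (.cutZ 1900000 (.pair 29 55 45) (.pair 29 55 58)) (.cutZ 1900000 (.pair 29 55 45) (.pair 29 55 58)))))) (.cutX 6400000 (.cutY 1100000 (.cutZ 1800000 (.pair 33 23 56) (.pair 33 23 52)) (.cutZ 1800000 (.cutX 6300000 (.cutY 1200000 (.pair 39 24 51) (.pair 39 40 51)) (.cutY 1200000 (.cutZ 1700000 (.pair 33 37 51) (.pair 33 24 59)) (.pair 33 60 51))) (.cutX 6300000 (.pair 39 24 52) (.cutY 1200000 (.pair 33 24 52) (.pair 33 60 52)))))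 (.cutY 1100000 (.cutZ 1800000 (.cutX 6500000 (.cutZ 1700000 (.pair 29 41 61) (.pair 29 62 59)) (.cutZ 1700000 (.pair 29 62 61) (.pair 29 62 59))) (.cutX 6500000 (.cutZ 1900000 (.pair 29 23 63) (.pair 29 23 58)) (.cutZ 1900000 (.pair 29 23 63) (.pair 29 23 58)))) (.cutZ 1800000 (.cutX 6500000 (.cutY 1200000 (.cutZ 1700000 (.cutX 6450000 (.cutY 1150000 (.pair 29 37 61) (.pair 29 64 61)) (.cutY 1150000 (.pair 29 37 61) (.pair 29 64 61))) (.cutX 6450000 (.cutY 1150000 (.pair 29 65 59) (.pair 29 64 59)) (.cutY 1150000 (.pair 29 65 59) (.pair 29 64 59)))) (.cutZ 1700000 (.pair 66 60 61) (.pair 66 60 59))) (.cutY 1200000 (.cutZ 1700000 (.cutY 1150000 (.pair 29 65 61) (.pair 29 64 61)) (.cutY 1150000 (.pair 29 65 59) (.pair 29 64 59))) (.cutZ 1700000 (.pair 29 60 67) (.pair 29 60 59)))) (.cutX 6500000 (.cutY 1200000 (.cutZ 1900000 (.pair 66 24 63) (.pair 66 24 58)) (.pair 66 60 52)) (.cutY 1200000 (.cutZ 1900000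 (.cutY 1150000 (.pair 29 65 63) (.pair 29 64 63)) (.cutY 1150000 (.pair 29 65 58) (.pair 29 68 58))) (.cutZ 1900000 (.pair 29 60 63) (.pair 29 60 58)))))))) (.cutY 1000000 (.cutX 6400000 (.cutZ 2200000 (.pair 33 53 69) (.pair 33 53 50)) (.cutZ 2200000 (.cutY 900000 (.pair 29 57 69) (.pair 29 70 69)) (.pair 29 53 50))) (.cutX 6400000 (.cutY 1100000 (.pair 33 23 54) (.pair 33 71 54)) (.cutY 1100000 (.cutZ 2200000 (.pair 29 23 69) (.pair 29 23 50)) (.cutZ 2200000 (.cutX 6500000 (.pair 66 71 69) (.cutY 1200000 (.pair 29 71 69) (.pair 29 72 69))) (.pair 29 71 50))))))))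

def part4 : PTree := (.cutX 5600000 (.cutX 5200000 (.cutZ 1600000 (.pair 0 1 2) (.pair 0 1 3)) (.cutZ 1600000 (.cutY 800000 (.cutZ 1200000 (.cutZ 800000 (.pair 4 5 6) (.pair 4 5 7)) (.pair 4 5 8)) (.cutZ 1200000 (.cutY 1000000 (.cutZ 800000 (.pair 4 7 5) (.pair 4 7 7)) (.cutZ 800000 .empty (.pair 4 9 7))) (.cutY 1000000 (.pair 4 7 8) (.pair 4 9 8)))) (.cutZ 2400000 (.cutY 800000 (.cutZ 2000000 (.pair 4 5 10) (.pair 4 11 12)) (.cutZ 2000000 (.pair 4 13 14) (.pair 4 13 12))) (.cutY 800000 (.pair 4 11 15) (.pair 4 13 15))))) (.cutX 6000000 (.cutZ 1600000 (.cutY 800000 (.cutZ 1200000 (.cutZ 800000 (.pair 16 5 5) (.pair 16 5 7)) (.pair 16 5 8)) (.cutZ 1200000 (.cutY 1000000 (.cutZ 800000 (.pair 16 7 5) (.pair 16 17 7)) (.cutZ 800000 .empty (.pair 16 9 7))) (.cutY 1000000 (.pair 16 17 8) (.cutX 5800000 (.pair 18 19 8) (.cutY 1100000 (.pair 16 19 8) (.cutZ 1400000 (.pair 16 9 8) (.pair 16 19 20))))))) (.cutZ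 2400000 (.cutY 800000 (.cutZ 2000000 (.pair 16 21 10) (.pair 16 11 12)) (.cutZ 2000000 (.cutY 1000000 (.pair 16 22 14) (.cutX 5800000 (.pair 18 19 14) (.cutY 1100000 (.pair 16 23 14) (.pair 16 24 14)))) (.cutY 1000000 (.pair 16 22 12) (.pair 16 25 12)))) (.cutY 800000 (.pair 16 11 15) (.pair 16 26 15)))) (.cutZ 1600000 (.cutY 800000 (.cutZ 1200000 (.cutX 6200000 (.cutZ 800000 (.pair 27 5 5) (.pair 27 28 7)) (.cutZ 800000 (.pair 29 5 5) (.cutX 6400000 (.cutY 600000 (.pair 29 28 7) (.pair 29 30 7)) (.cutY 600000 (.pair 29 28 7) (.pair 29 30 7))))) (.cutX 6200000 (.pair 27 28 8) (.cutX 6400000 (.cutY 600000 (.pair 29 28 8) (.pair 29 30 8)) (.cutY 600000 (.pair 29 28 8) (.pair 29 30 8))))) (.cutZ 1200000 (.cutX 6200000 (.cutY 1000000 (.cutZ 800000 (.pair 27 17 28) (.pair 27 17 7)) (.cutZ 800000 .empty (.cutY 1100000 (.pair 27 9 7) (.pair 27 31 32)))) (.cutY 1000000 (.cutZ 800000 (.pair 29 17 28) (.cutX 6400000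 (.pair 33 17 32) (.cutZ 1000000 (.pair 29 17 17) (.pair 29 17 9)))) (.cutZ 800000 .empty (.cutX 6400000 (.cutY 1100000 (.pair 33 34 32) (.cutZ 1000000 .empty (.pair 33 31 9))) (.cutY 1100000 (.pair 29 34 32) (.cutZ 1000000 .empty (.pair 29 31 9))))))) (.cutX 6200000 (.cutY 1000000 (.pair 27 35 8) (.cutY 1100000 (.cutZ 1400000 (.pair 27 34 8) (.pair 27 34 20)) (.cutZ 1400000 (.pair 27 31 36) (.pair 27 37 20)))) (.cutY 1000000 (.cutX 6400000 (.cutZ 1400000 (.pair 33 35 36) (.pair 33 35 20)) (.cutZ 1400000 (.pair 29 35 36) (.pair 29 35 38))) (.cutX 6400000 (.cutY 1100000 (.cutZ 1400000 (.pair 33 34 36) (.pair 33 34 38)) (.cutZ 1400000 (.pair 33 37 36) (.cutX 6300000 (.pair 39 37 20) (.cutY 1200000 (.pair 33 37 20) (.pair 33 40 20))))) (.cutY 1100000 (.cutZ 1400000 (.pair 29 34 36) (.pair 29 41 38)) (.cutZ 1400000 (.cutX 6500000 (.cutY 1200000 (.pair 29 37 36) (.pair 29 40 36)) (.cutY 1200000 (.pair 29 37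 36) (.pair 29 40 36))) (.cutX 6500000 (.cutY 1200000 (.cutZ 1500000 (.pair 29 37 42) (.cutX 6450000 (.cutY 1150000 (.pair 29 37 43) (.pair 29 37 43)) (.pair 29 37 43))) (.cutZ 1500000 (.pair 29 40 42) (.pair 29 40 43))) (.cutY 1200000 (.cutZ 1500000 (.pair 29 37 42) (.pair 29 37 43)) (.cutZ 1500000 (.pair 29 40 42) (.pair 29 40 43))))))))))) (.cutZ 2400000 part3 (.cutY 800000 (.cutX 6200000 (.pair 27 11 15) (.cutZ 2800000 (.cutX 6400000 (.pair 33 11 73) (.cutY 600000 (.pair 29 48 73) (.pair 29 47 73))) (.pair 29 11 74))) (.cutX 6200000 (.cutY 1000000 (.pair 27 53 15) (.pair 27 25 15)) (.cutY 1000000 (.pair 29 53 15) (.pair 29 25 15))))))))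

def tree : PTree := (.cutX 6550000 (.cutY 1250000 part4 .graph) (.cutX 6600000 (.cutY 1180000 (.cutZ 1600000 (.cutY 800000 (.cutZ 1200000 (.cutZ 800000 (.pair 75 5 5) (.cutY 600000 (.pair 75 28 7) (.pair 75 30 7))) (.cutY 600000 (.pair 75 28 8) (.pair 75 76 8))) (.cutZ 1200000 (.cutZ 800000 (.cutY 1000000 (.pair 75 17 28) .empty) (.cutY 1000000 (.cutZ 1000000 (.pair 75 17 17) (.pair 75 17 9)) (.cutZ 1000000 (.pair 75 9 17) (.pair 75 9 9)))) (.cutY 1000000 (.cutZ 1400000 (.pair 75 35 36) (.pair 75 35 38)) (.cutZ 1400000 (.cutY 1100000 (.pair 75 34 36) (.pair 75 37 36)) (.cutY 1100000 (.pair 75 41 38) (.cutZ 1500000 (.pair 75 37 42) (.pair 75 37 43))))))) (.cutZ 2400000 (.cutY 800000 (.cutZ 2000000 (.cutY 600000 (.pair 75 48 10) (.cutZ 1800000 (.pair 75 76 46) (.pair 75 44 45))) (.cutY 600000 (.pair 75 48 12) (.cutZ 2200000 (.cutY 700000 (.pair 75 47 69) (.pair 75 49 69)) (.pair 75 47 50)))) (.cutZ 2000000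 (.cutY 1000000 (.cutZ 1800000 (.cutY 900000 (.pair 75 57 46) (.cutZ 1700000 (.pair 75 55 61) (.pair 75 55 59))) (.cutY 900000 (.pair 75 57 45) (.cutZ 1900000 (.pair 75 55 63) (.pair 75 55 58)))) (.cutZ 1800000 (.cutY 1100000 (.cutZ 1700000 (.pair 75 62 61) (.pair 75 62 59)) (.cutZ 1700000 (.pair 75 77 67) (.cutY 1150000 (.pair 75 65 59) (.pair 75 64 59)))) (.cutY 1100000 (.cutZ 1900000 (.cutY 1050000 (.pair 75 23 63) (.pair 75 78 63)) (.pair 75 23 58)) (.cutZ 1900000 (.pair 75 79 63) (.pair 75 79 58))))) (.cutY 1000000 (.cutZ 2200000 (.cutY 900000 (.pair 75 57 69) (.pair 75 70 69)) (.pair 75 53 50)) (.cutZ 2200000 (.cutY 1100000 (.pair 75 23 69) (.pair 75 71 69)) (.pair 75 25 80))))) (.cutY 800000 (.cutZ 2800000 (.cutY 600000 (.pair 75 48 73) (.pair 75 47 73)) (.pair 75 11 74)) (.cutZ 2800000 (.cutY 1000000 (.pair 75 53 73) (.pair 75 25 73)) (.pair 75 26 74))))) .graph) part2))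

theorem tree_ok : PTree.ok bin items tree = true := by
  simp only [PTree.ok, Bool.and_eq_true]
  refine ⟨⟨by decide +kernel, ?_⟩, by decide +kernel⟩
  simp only [items, List.all_append, chunk0_ok, chunk1_ok, chunk2_ok, chunk3_ok, chunk4_ok, chunk5_ok, chunk6_ok, Bool.and_self]

end Vale.Agent.P232.GapPair.Bin4
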